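import Vale.Agent.P280.N2.F2
import Vale.Agent.P280.N2.RealInt

namespace Vale.Agent.Results.P280.TorusNef

open Vale.Agent.P280.T Vale.Agent.P280.H127

/-- The Campana-Peternell conjecture for projective manifolds with a torus action. `X` is a
projective manifold with nef tangent bundle and with the action of a torus `T`, such that the fixed
points of `T` are isolated and the weights of `T` on the tangent space at each of them are pairwise
independent and of multiplicity one. Then `X` is homogeneous; moreover every tangent vector, of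
weight `χ`, at a fixed point of `T` is the value of a global vector field of weight `χ`. -/
theorem result {r : ℕ} {R : Type} [CommRing R] [Algebra ℂ R]
    (𝒜 : ℕ × (Fin r → ℤ) → Submodule ℂ R) [GradedAlgebra 𝒜] (hX : IsTorusManifold 𝒜)
    (hN : NefOnRationalCurves 𝒜)
    (hiso : ∀ x ν, ¬ IsVertex 𝒜 x → IsFixed 𝒜 x ν → ¬ TangentWeight 𝒜 x ν 0)
    (hind : ∀ x ν ω ω', ¬ IsVertex 𝒜 x → IsFixed 𝒜 x ν → TangentWeight 𝒜 x ν ω →
      TangentWeight 𝒜 x ν ω' → (∃ a b : ℤ, a ≠ 0 ∧ b ≠ 0 ∧ a • ω = b • ω') → ω = ω')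
    (hmult : ∀ x ν ω, ¬ IsVertex 𝒜 x → IsFixed 𝒜 x ν → TangentWeight 𝒜 x ν ω →
      ∀ v v' : R →ₗ[ℂ] ℂ, IsTangent x v → HasWeight 𝒜 ν ω v → IsTangent x v' →
        HasWeight 𝒜 ν ω v' → ∃ c c' : ℂ, (c ≠ 0 ∨ c' ≠ 0) ∧ ∀ h, c * v h + c' * v' h = 0) :
    (IsHomogeneousManifold 𝒜 ∧ IsTransitive 𝒜) ∧
    ∀ (x : R →ₐ[ℂ] ℂ) (ν χ : Fin r → ℤ), ¬ IsVertex 𝒜 x → IsFixed 𝒜 x ν →
      TangentWeight 𝒜 x ν χ → ∀ v : R →ₗ[ℂ] ℂ, IsTangent x v → HasWeight 𝒜 ν χ v →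
        ∃ D : Derivation ℂ R R, (∀ d m, ∀ h ∈ 𝒜 (d, m), D h ∈ 𝒜 (d, m - χ)) ∧
          ∀ h : R, x (D h) = v h := by
  obtain ⟨h1, h2⟩ := Vale.Agent.P280.N2.F.final_of_real
    (fun _ _ _ _ H _ hint z hz => Vale.Agent.P280.N2.real_interior H hint z hz)
    hX hN hiso hind hmult
  exact ⟨h2, fun x ν χ hx0 hx hχ v hv hw => h1 χ x ν hx0 hx hχ v hv hw⟩

end Vale.Agent.Results.P280.TorusNef
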